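import Vale.Agent.P307.R2.H1.Avg
import Vale.Agent.P307.R2.H68.Shift

/-!
Convergent sequences which are uniform with indices in given sets.
-/

set_option linter.unusedSectionVars false

universe u v w

open FirstOrder Cardinal Set

namespace Vale.Agent.P307.R2.H476

open Vale.Agent.P307 Vale.Agent.P307.H304 Vale.Agent.P307.R2.H287 Vale.Agent.P307.H67
  Vale.Agent.P307.R2.H1 Vale.Agent.P307.R2.H68 Vale.Agent.P307.R2.H806
  Language.Structure Language.Substructure

variable {L : Language.{u, u}} {K : AEC L} {ℓ : Cardinal.{u}} {κf : Cardinal.{u} → Cardinal.{u}}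

/-- Uniform sequences of tuples in an EM model: the term of the `i`-th coordinate is fixed and its
indices lie in `W i`. -/
def IsUnifW {t : Tpl K ℓ} {I : Type u} [LinearOrder I] (E : EM t I) {ι : Type u} (W : ι → Set I)
    {X : Type u} [LinearOrder X] (a : X → ι → E.N) : Prop :=
  ∃ (s : ι → (exLang L t.Λ).Term (ULift.{u} ℕ)) (w : X → ι × ULift.{u} ℕ → I),
    (∀ x i, (s i).realize (fun k => E.c (w x (i, k))) = a x i) ∧ Unif w ∧ ∀ x p, w x p ∈ W p.1

section

variable {t : Tpl K ℓ} {I : Type u} [LinearOrder I] {E : EM t I}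

theorem IsUnifW.isUnif {ι : Type u} {W : ι → Set I} {X : Type u} [LinearOrder X]
    {a : X → ι → E.N} (h : IsUnifW E W a) : IsUnif E a := by
  obtain ⟨s, w, h1, h2, -⟩ := h
  refine ⟨fun i => (s i).relabel fun k => (i, k), w, fun x i => ?_, h2⟩
  rw [Language.Term.realize_relabel]
  exact h1 x i

theorem IsUnifW.comp {ι : Type u} {W : ι → Set I} {X Y : Type u} [LinearOrder X] [LinearOrder Y]
    {a : X → ι → E.N} (h : IsUnifW E W a) {σ : Y → X} (hσ : StrictMono σ) :
    IsUnifW E W fun y => a (σ y) := by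
  obtain ⟨s, w, h1, h2, h3⟩ := h
  exact ⟨s, fun y => w (σ y), fun y i => h1 _ i, h2.comp hσ, fun y p => h3 _ p⟩

/-- Terms with indices in a given set. -/
theorem exists_nat_termW (E : EM t I) {W : Set I} (hW : W.Nonempty) {z : E.N}
    (hz : z ∈ hull E W) : ∃ (s : (exLang L t.Λ).Term (ULift.{u} ℕ)) (q : ULift.{u} ℕ → I),
      s.realize (fun k => E.c (q k)) = z ∧ ∀ k, q k ∈ W := by
  classical
  obtain ⟨w, s, hw, hs⟩ := exists_finset_term_of_mem E hz
  obtain ⟨i₀, hi₀⟩ := hW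
  refine ⟨s.relabel fun d => ULift.up (w.equivFin d).1, fun k =>
    if h : k.down < w.card then (w.equivFin.symm ⟨k.down, h⟩).1 else i₀, ?_, fun k => ?_⟩
  · rw [Language.Term.realize_relabel, ← hs]
    congr 1
    funext d
    have h1 : (w.equivFin d).1 < w.card := (w.equivFin d).2
    change E.c (dite _ _ _) = E.c d
    rw [dif_pos h1]
    simp
  · beta_reduce
    by_cases h : k.down < w.card
    · rw [dif_pos h]
      exact hw _ (w.equivFin.symm ⟨k.down, h⟩).2
    · rw [dif_neg h]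
      exact hi₀

/-- The thinning of a sequence, with indices in given sets. -/
theorem exists_isUnifW {c μ : Cardinal.{u}} {X : Type u} [LinearOrder X] [WellFoundedLT X]
    (hX : arrowFn 1 c (arrowFn 2 c μ) ≤ #X) {ι : Type u} (hc : 2 ^ (max ℓ #ι) ≤ c)
    {W : ι → Set I} (hW : ∀ i, (W i).Nonempty) (a : X → ι → E.N)
    (ha : ∀ x i, a x i ∈ hull E (W i)) :
    ∃ H : Set X, μ ≤ #H ∧ IsUnifW E W fun x : H => a x := by
  classical
  choose s' q' hsq' hqW' using fun (p : X × ι) => exists_nat_termW E (hW p.2) (ha p.1 p.2)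
  have hm : ℵ₀ ≤ max ℓ #ι := t.hν.trans (le_max_left _ _)
  have hι : #ι ≤ max ℓ #ι := le_max_right _ _
  obtain ⟨H, h1, h2, h3⟩ := exists_thin (c := c) (μ := μ) hX
    (fun x (p : ι × ULift.{u} ℕ) => q' (x, p.1) p.2) (fun x i => s' (x, i))
    (hm.trans ((cantor _).le.trans hc)) (by
      have h1 : #(ι → (exLang L t.Λ).Term (ULift.{u} ℕ)) =
          #((exLang L t.Λ).Term (ULift.{u} ℕ)) ^ #ι := by simp
      rw [h1]
      refine le_trans ?_ hc
      have h2 : #((exLang L t.Λ).Term (ULift.{u} ℕ)) ≤ 2 ^ (max ℓ #ι) :=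
        (mk_term_le hm (t.hx.trans (le_max_left _ _)) _ (by
          rw [mk_uLift, mk_nat, lift_aleph0]
          exact hm)).trans (cantor _).le
      refine (power_le_power_right h2).trans ?_
      rw [← power_mul]
      refine power_le_power_left two_ne_zero ?_
      exact (mul_le_mul' le_rfl hι).trans (mul_eq_self hm).le) (by
      refine le_trans (power_le_power_left two_ne_zero ?_) hc
      exact (mul_le_mul' (mk_prod_nat_le hm hι) (mk_prod_nat_le hm hι)).trans (mul_eq_self hm).le)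
  refine ⟨H, h1, ?_⟩
  have hHne : (H.Nonempty) ∨ H = ∅ := (Set.eq_empty_or_nonempty H).symm
  rcases hHne with ⟨x₀, hx₀⟩ | hH
  · refine ⟨fun i => s' (x₀, i), fun x p => q' (x, p.1) p.2, ?_, h3,
      fun x p => hqW' (x, p.1) p.2⟩
    intro x i
    have h4 : s' (x₀, i) = s' (x, i) := congrFun (h2 x₀ hx₀ x x.2) i
    beta_reduce
    rw [h4]
    exact hsq' (x, i)
  · subst hH
    exact ⟨fun i => Language.Term.var ⟨0⟩, fun x => x.2.elim, fun x => x.2.elim,
      fun x => x.2.elim, fun x => x.2.elim⟩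

end

/-- **Convergent sequences**, uniform with indices in given sets. -/
theorem exists_limW (hK : K.IsLS ℓ) (hunb : ∀ ν, ν < κf ν ∧ K.CategoricalIn (κf ν))
    {ν : Cardinal.{u}} (hℓ : ℓ ≤ ν) {t : Tpl K ℓ} {I : Type u} [LinearOrder I] (hne : Nonempty I)
    (E : EM t I) (hE : thr κf (opB κf ν) ≤ #E.N) {M : Type u} [L.Structure M] {ι : Type u}
    (hι : #ι ≤ ν) (c : ι → M) (G : Set (M × E.N)) (P₀ : Set (ι → E.N))
    (hG : ∀ Y ⊆ G, #Y ≤ limB κf ν → ∃ c' ∈ P₀, ∀ Y' ⊆ Y, #Y' ≤ ν →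
      Good L ν (Y' ∪ range fun i => (c i, c' i))) {W : ι → Set I} (hW : ∀ i, (W i).Nonempty)
    (hPW : ∀ c' ∈ P₀, ∀ i, c' i ∈ hull E (W i)) :
    ∃ a : SuccTy (opB κf ν) → ι → E.N, IsUnifW E W a ∧ (∀ x, a x ∈ P₀) ∧
      ∀ Y ⊆ G, #Y ≤ ν → ∃ x₀, ∀ x, x₀ ≤ x → Good L ν (Y ∪ range fun i => (c i, a x i)) := by
  classical
  let μ := opB κf ν
  have hν : ℵ₀ ≤ ν := hK.1.trans hℓ
  have hνμ : ν ≤ μ := le_opB hunb ν
  have hμ : ℵ₀ ≤ μ := hν.trans hνμ
  have hμE : μ ≤ #E.N := (le_thr hunb μ).trans hE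
  have hthrE : thr κf ν ≤ #E.N := (thr_le_opB κf ν).trans hμE
  let gd : (ι → E.N) → Set (M × E.N) → Prop := fun a Y => Good L ν (Y ∪ range fun i => (c i, a i))
  -- the witnesses
  have hwit : ∀ a : SuccTy μ → ι → E.N, ∃ Y : Set (M × E.N), Y ⊆ G ∧ #Y ≤ ν ∧
      ((∃ Y ⊆ G, #Y ≤ ν ∧ ¬ ∃ x₀, ∀ x, x₀ ≤ x → gd (a x) Y) →
        ¬ ∃ x₀, ∀ x, x₀ ≤ x → gd (a x) Y) := by
    intro a
    by_cases h : ∃ Y ⊆ G, #Y ≤ ν ∧ ¬ ∃ x₀, ∀ x, x₀ ≤ x → gd (a x) Y
    · obtain ⟨Y, h1, h2, h3⟩ := h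
      exact ⟨Y, h1, h2, fun _ => h3⟩
    · exact ⟨∅, empty_subset _, by simp, fun h' => absurd h' h⟩
  choose wit hw1 hw2 hw3 using hwit
  -- the recursion
  let X' : Type u := (limL κf ν).ord.ToType
  have hX' : #X' = limL κf ν := by simp [X']
  have hstep : ∀ (j : X') (g : ∀ k : X', k < j → ι → E.N), ∃ c' ∈ P₀,
      ∀ σ : SuccTy μ → Iio j, gd c' (wit fun x => g (σ x).1 (σ x).2) := by
    intro j g
    obtain ⟨c', h1, h2⟩ := hG (⋃ σ : SuccTy μ → Iio j, wit fun x => g (σ x).1 (σ x).2)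
      (iUnion_subset fun σ => hw1 _) (by
        let B := max (limL κf ν) (Order.succ μ)
        have hB : ℵ₀ ≤ B := (hμ.trans (Order.le_succ μ)).trans (le_max_right _ _)
        refine (mk_iUnion_le _).trans ?_
        have h3 : #(SuccTy μ → Iio j) ≤ 2 ^ B := by
          have h4 : #(SuccTy μ → Iio j) = #(Iio j) ^ #(SuccTy μ) := by simp
          rw [h4]
          have h5 : #(Iio j) ≤ 2 ^ B :=
            ((mk_set_le _).trans (hX'.le.trans (le_max_left _ _))).trans (cantor B).le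
          have h6 : #(SuccTy μ) ≤ B := by
            rw [mk_toType, card_ord]
            exact le_max_right _ _
          refine (power_le_power_right h5).trans ?_
          rw [← power_mul]
          refine power_le_power_left two_ne_zero ?_
          exact (mul_le_mul' le_rfl h6).trans (mul_eq_self hB).le
        have h4 : (⨆ σ : SuccTy μ → Iio j, #(wit fun x => g (σ x).1 (σ x).2)) ≤ 2 ^ B :=
          ciSup_le' fun σ => (hw2 _).trans
            (((hνμ.trans (Order.le_succ μ)).trans (le_max_right _ _)).trans (cantor B).le)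
        exact (mul_le_mul' h3 h4).trans (mul_eq_self (hB.trans (cantor B).le)).le)
    exact ⟨c', h1, fun σ => h2 _ (subset_iUnion (fun σ : SuccTy μ → Iio j =>
      wit fun x => g (σ x).1 (σ x).2) σ) (hw2 _)⟩
  choose F hF1 hF2 using hstep
  let α : X' → ι → E.N := WellFounded.fix (r := (· < ·)) wellFounded_lt F
  have hα : ∀ x, α x = F x fun y _ => α y := fun x => WellFounded.fix_eq _ _ x
  have hα1 : ∀ x, α x ∈ P₀ := fun x => by
    rw [hα x]
    exact hF1 _ _
  have hα2 : ∀ (j : X') (σ : SuccTy μ → Iio j), gd (α j) (wit fun x => α (σ x).1) := by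
    intro j σ
    rw [hα j]
    exact hF2 j (fun y _ => α y) σ
  -- thinning
  obtain ⟨H, hH, huW⟩ := exists_isUnifW (E := E) (c := 2 ^ ν) (μ := Order.succ (Order.succ μ))
    (X := X') hX'.ge (ι := ι) (power_le_power_left two_ne_zero (max_le hℓ hι)) hW α
    fun x i => hPW _ (hα1 x) i
  have hu : IsUnif E fun x : H => α x := huW.isUnif
  obtain ⟨e, he⟩ := exists_strictMono_of_card hH
  have hsμ : ℵ₀ ≤ Order.succ μ := hμ.trans (Order.le_succ μ)
  have hD1 : Dir (Order.succ μ) (SuccTy (Order.succ μ)) := dir_succTy hsμ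
  obtain ⟨z₀, -⟩ := hD1 ∅ (by simp)
  obtain ⟨f, hf, -⟩ := exists_strictMono (X := SuccTy μ) (W := SuccTy (Order.succ μ)) hμ
    (fun x => mk_Iio_succTy x) (hD1.mono (Order.le_succ μ)) z₀
  obtain ⟨δ, hδ⟩ := hD1 (range f) (mk_range_le.trans (by rw [mk_toType, card_ord]))
  let s : SuccTy μ → H := fun x => e (f x)
  have hs : StrictMono s := he.comp hf
  let a : SuccTy μ → ι → E.N := fun x => α (s x)
  have ha : IsUnif E a := hu.comp hs
  refine ⟨a, huW.comp hs, fun x => hα1 _, fun Y hY hYν => ?_⟩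
  by_contra hbad
  have hw := hw3 a ⟨Y, hY, hYν, hbad⟩
  have hY1 : #(wit a) ≤ ν := hw2 a
  obtain ⟨x₀, hx₀⟩ := ha.ev_const hK hunb hℓ hthrE ((dir_succTy hμ).mono hνμ) hι hY1 hne
    (fun p : wit a => p.1.2)
  have hbad1 : ∀ x, x₀ ≤ x → ¬ gd (a x) (wit a) := by
    intro x hx hgd
    refine hw ⟨x₀, fun x' hx' => ?_⟩
    exact good_union_iff.2 ((good_union_iff.1 hgd).trans (hx₀ x hx x' hx'))
  have hgood : ∀ z, δ ≤ z → gd (α (e z)) (wit a) := by
    intro z hz
    exact hα2 (e z) fun x => ⟨s x, he ((hδ _ ⟨x, rfl⟩).trans_le hz)⟩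
  -- the order
  let X : Type u := μ.ord.ToType
  have hX : #X = μ := by simp [X]
  have hXI : ∀ x : X, #(Iio x) ≤ μ := fun x => (mk_set_le _).trans hX.le
  obtain ⟨f', hf', hf'2⟩ := exists_strictMono (X := X) hμ hXI (dir_succTy hμ) x₀
  obtain ⟨g', hg', hg'2⟩ := exists_strictMono (X := X) hμ hXI (hD1.mono (Order.le_succ μ)) δ
  let σ : X → X → H := fun γ x => if x < γ then s (f' x) else e (g' x)
  have hσ : ∀ γ, StrictMono (σ γ) := by
    intro γ x y hxy
    change (if x < γ then s (f' x) else e (g' x)) < if y < γ then s (f' y) else e (g' y)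
    by_cases hy : y < γ
    · rw [if_pos hy, if_pos (hxy.trans hy)]
      exact hs (hf' hxy)
    · rw [if_neg hy]
      by_cases hx : x < γ
      · rw [if_pos hx]
        exact he ((hδ _ ⟨_, rfl⟩).trans (hg'2 y))
      · rw [if_neg hx]
        exact he (hg' hxy)
  let b : X → ι → E.N := fun x => α (e (g' x))
  have hιμ : #ι ≤ μ := hι.trans hνμ
  have hext : ∀ γ : X, ∃ y : wit a → E.N, ∀ x, EqS L ν
      (Sum.elim (fun p : wit a => p.1.2) (α (σ γ x))) (Sum.elim y (b x)) := by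
    intro γ
    have h1 := hu.eqS hK hunb (hℓ.trans hνμ) hE hιμ hX.le (σ γ) (fun x => e (g' x))
      (fun q q' => by rw [(hσ γ).lt_iff_lt, he.lt_iff_lt, hg'.lt_iff_lt])
    obtain ⟨y, hy⟩ := EqS.exists_ext h1 (hY1.trans hνμ) (fun p : wit a => p.1.2)
    refine ⟨y, fun x => ?_⟩
    have h2 := EqS.comp hy (ζ := wit a ⊕ ι) (Sum.elim (fun p => Sum.inr p)
      (fun i => Sum.inl (x, i)))
    have h3 : (fun z : wit a ⊕ ι => (Sum.elim (fun p : X × ι => α (σ γ p.1) p.2)
        (fun p : wit a => p.1.2)) ((Sum.elim (fun p => Sum.inr p) (fun i => Sum.inl (x, i)) :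
        wit a ⊕ ι → (X × ι) ⊕ wit a) z)) =
        Sum.elim (fun p : wit a => p.1.2) (α (σ γ x)) := by
      funext z
      rcases z with z | z <;> rfl
    have h4 : (fun z : wit a ⊕ ι => (Sum.elim (fun p : X × ι => α (e (g' p.1)) p.2) y)
        ((Sum.elim (fun p => Sum.inr p) (fun i => Sum.inl (x, i)) :
        wit a ⊕ ι → (X × ι) ⊕ wit a) z)) = Sum.elim y (b x) := by
      funext z
      rcases z with z | z <;> rfl
    rw [h3, h4] at h2
    refine EqS.mono hν hνμ h2 ?_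
    rw [mk_sum, lift_id, lift_id]
    exact add_le_of_le hν hY1 hι
  choose y hy using hext
  refine no_order hK hunb hℓ E.mem hμE (X := X) hX.ge hY1 hι y b
    (Sum.elim (fun p : wit a => p.1.1) c) ?_ ?_
  · intro x x' hxx
    have h1 : σ x x' = e (g' x') := if_neg (not_lt.2 hxx.le)
    have h2 := hy x x'
    rw [h1] at h2
    have h3 := good_union_iff.1 (hgood (g' x') (hg'2 x').le)
    exact h2.symm.trans h3.symm
  · intro x x' hxx hcon
    have h1 : σ x' x = s (f' x) := if_pos hxx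
    have h2 := hy x' x
    rw [h1] at h2
    exact hbad1 (f' x) (hf'2 x).le (good_union_iff.2 (hcon.symm.trans h2.symm))

end Vale.Agent.P307.R2.H476
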