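import Vale.Agent.P307.Defs

/-!
Strong embeddings, saturation, independence, atomic models and independent systems in a member of
an abstract elementary class.
-/

universe u

open FirstOrder Cardinal Set

namespace Vale.Agent.P307.R2.H476

variable {L : Language.{u, u}}

/-- `f` is an isomorphism of `M` onto a strong substructure of `N`. -/
def Strong (K : AEC L) {M N : Type u} [L.Structure M] [L.Structure N] (f : M ↪[L] N) : Prop :=
  K.le f.toHom.range

/-- `M` is saturated for extensions of cardinality `θ`: if a member `A` of cardinality `θ` is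
strongly embedded in `M` and in a member `B` of cardinality `θ`, then `B` is strongly embedded in
`M` over `A`. -/
def Saturated (K : AEC L) (θ : Cardinal.{u}) (M : Type u) [L.Structure M] : Prop :=
  ∀ (A B : Type u) [L.Structure A] [L.Structure B] (i : A ↪[L] M) (f : A ↪[L] B),
    Strong K i → Strong K f → #A = θ → #B = θ → ∃ g : B ↪[L] M, Strong K g ∧ ∀ a, g (f a) = i a

/-- Amalgamation over members of cardinality `θ` of strong extensions of cardinality at most
`θ⁺`. -/
def Amalgamation (K : AEC L) (θ : Cardinal.{u}) : Prop :=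
  ∀ (A B D : Type u) [L.Structure A] [L.Structure B] [L.Structure D] (f : A ↪[L] B)
    (g : A ↪[L] D), Strong K f → Strong K g → #A = θ → #B ≤ Order.succ θ → #D ≤ Order.succ θ →
    ∃ (N : Type u) (_ : L.Structure N) (f' : B ↪[L] N) (g' : D ↪[L] N),
      Strong K f' ∧ Strong K g' ∧ #N = Order.succ θ ∧ ∀ a, f' (f a) = g' (g a)

/-- Disjoint amalgamation in the cardinal `θ`. -/
def DisjointAmalgamation (K : AEC L) (θ : Cardinal.{u}) : Prop :=
  ∀ (A B D : Type u) [L.Structure A] [L.Structure B] [L.Structure D] (f : A ↪[L] B)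
    (g : A ↪[L] D), Strong K f → Strong K g → #A = θ → #B = θ → #D = θ →
    ∃ (N : Type u) (_ : L.Structure N) (f' : B ↪[L] N) (g' : D ↪[L] N),
      Strong K f' ∧ Strong K g' ∧ #N = θ ∧ (∀ a, f' (f a) = g' (g a)) ∧
        ∀ b d, f' b = g' d → ∃ a, f a = b ∧ g a = d

/-- The underlying sets of the strong substructures of `C` of cardinality `θ`. -/
def Models (K : AEC L) (θ : Cardinal.{u}) (C : Type u) [L.Structure C] : Set (Set C) :=
  {N | ∃ S : L.Substructure C, K.le S ∧ #S = θ ∧ (S : Set C) = N}

section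

variable (L) (θ : Cardinal.{u}) {C : Type u} [L.Structure C]

/-- There is an automorphism of `C` which fixes all elements of `X` and agrees with `f` on `E`:
the tuples `E` and `f E` have the same type over `X`. -/
def SameType (X E : Set C) (f : C → C) : Prop :=
  ∃ g : C ≃[L] C, (∀ x ∈ X, g x = x) ∧ ∀ e ∈ E, g e = f e

/-- `E` and `f E` have the same type over all subsets of `X` of cardinality less than `θ`. -/
def SameSmallTypes (X E : Set C) (f : C → C) : Prop :=
  ∀ A ⊆ X, #A < θ → SameType L A E f

/-- `X` is independent from `Y` over `P`: every subset of `Y` of cardinality less than `θ` is moved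
into `P` by an automorphism which fixes a given subset of `P ∪ X` of cardinality less than `θ`. -/
def Indep (P X Y : Set C) : Prop :=
  ∀ A ⊆ P ∪ X, #A < θ → ∀ B ⊆ Y, #B < θ → ∃ g : C ≃[L] C, (∀ a ∈ A, g a = a) ∧ ∀ b ∈ B, g b ∈ P

/-- The type of `E` over `B` isolates the type of `E` over `X`. -/
def Isolates (B X E : Set C) : Prop :=
  ∀ g : C ≃[L] C, (∀ b ∈ B, g b = b) → SameSmallTypes L θ X E g

end

/-- `N` is a strong substructure of cardinality `θ` which is atomic over `X`: it contains `X` and
the types over `X` of its subsets of cardinality less than `θ` are isolated by their restrictions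
to subsets of `X` of cardinality less than `θ`. -/
structure AtomicOver (K : AEC L) (θ : Cardinal.{u}) {C : Type u} [L.Structure C] (N X : Set C) :
    Prop where
  mem : N ∈ Models K θ C
  sub : X ⊆ N
  isolated : ∀ E ⊆ N, #E < θ → ∃ B ⊆ X, #B < θ ∧ Isolates L θ B X E

/-- `Q` is the set of realizations of a minimal type over the small set `p`: it is invariant, it is
contained in no strong substructure of cardinality `θ`, and over every such substructure `V` which
contains `p` all elements of `Q` outside `V` have the same type. -/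
structure IsMinimalType (K : AEC L) (θ : Cardinal.{u}) {C : Type u} [L.Structure C]
    (p Q : Set C) : Prop where
  small : #p < θ
  invariant : ∀ g : C ≃[L] C, (∀ a ∈ p, g a = a) → ∀ x ∈ Q, g x ∈ Q
  big : ∀ V ∈ Models K θ C, ∃ x ∈ Q, x ∉ V
  unique : ∀ V ∈ Models K θ C, p ⊆ V → ∀ x ∈ Q, x ∉ V → ∀ y ∈ Q, y ∉ V →
    ∃ g : C ≃[L] C, (∀ a ∈ V, g a = a) ∧ g x = y

/-- The boundary of the face `t` of a system: the elements of `t` and of the smaller faces. -/
def boundary {C : Type u} (A : Finset C → Set C) (t : Finset C) : Set C :=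
  {c | c ∈ t ∨ ∃ r, r ⊂ t ∧ c ∈ A r}

/-- `A` is an independent prime system over `A ∅` with the finite set of points `s`: each point is
independent from the opposite face, and each face is atomic over its boundary. -/
structure PrimeSystem (K : AEC L) (θ : Cardinal.{u}) {C : Type u} [L.Structure C]
    (A : Finset C → Set C) (s : Finset C) : Prop where
  mem : A ∅ ∈ Models K θ C
  free : ∀ x ∈ s, ∀ t, (∀ y, y ∈ t ↔ y ∈ s ∧ y ≠ x) → Indep L θ (A ∅) {x} (A t)
  atomic : ∀ t ⊆ s, t.Nonempty → AtomicOver K θ (A t) (boundary A t)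

/-- The independence calculus of a member `C` of cardinality `θ⁺`. -/
structure GoodFrame (K : AEC L) (θ : Cardinal.{u}) (C : Type u) [L.Structure C] : Prop where
  /-- Sets of cardinality at most `θ` are contained in strong substructures of cardinality `θ`. -/
  cover : ∀ X : Set C, #X ≤ θ → ∃ N ∈ Models K θ C, X ⊆ N
  /-- Homogeneity: isomorphisms between strong substructures of cardinality `θ` extend. -/
  homogeneous : ∀ P Q : L.Substructure C, K.le P → K.le Q → #P = θ → ∀ e : P ≃[L] Q,
    ∃ g : C ≃[L] C, ∀ x : P, g x = e x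
  /-- The strong substructures of cardinality `θ` realize all types over small sets. -/
  realize : ∀ N ∈ Models K θ C, ∀ A ⊆ N, #A < θ → ∀ B : Set C, #B < θ →
    ∃ g : C ≃[L] C, (∀ a ∈ A, g a = a) ∧ ∀ b ∈ B, g b ∈ N
  /-- Tameness over strong substructures: small types determine types. -/
  tame : ∀ N ∈ Models K θ C, ∀ E : Set C, #E < θ → ∀ f : C → C, SameSmallTypes L θ N E f →
    SameType L N E f
  /-- Tameness over unions of two independent strong substructures. -/
  tame_pair : ∀ P ∈ Models K θ C, ∀ A ∈ Models K θ C, ∀ B ∈ Models K θ C, P ⊆ A → P ⊆ B →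
    Indep L θ P A B → ∀ E : Set C, #E < θ → ∀ f : C → C, SameSmallTypes L θ (A ∪ B) E f →
      SameType L (A ∪ B) E f
  /-- Superstability: universal extensions exist. -/
  universal : ∀ P ∈ Models K θ C, ∃ Q ∈ Models K θ C, P ⊆ Q ∧ ∀ R ∈ Models K θ C, P ⊆ R →
    ∃ g : C ≃[L] C, (∀ a ∈ P, g a = a) ∧ ∀ x ∈ R, g x ∈ Q
  /-- Symmetry. -/
  symm : ∀ P ∈ Models K θ C, ∀ X Y : Set C, Indep L θ P X Y → Indep L θ P Y X
  /-- Transitivity. -/
  trans : ∀ P R X Y : Set C, P ⊆ R → Indep L θ P X R → Indep L θ R X Y → Indep L θ P X Y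
  /-- Change of the base. -/
  base : ∀ P ∈ Models K θ C, ∀ P' ∈ Models K θ C, P ⊆ P' → ∀ X Y : Set C,
    Indep L θ P X (P' ∪ Y) → Indep L θ P' X Y
  /-- Existence: free copies of strong substructures, independent from any set. -/
  exists_free : ∀ P ∈ Models K θ C, ∀ R ∈ Models K θ C, P ⊆ R → ∀ Z : Set C, #Z ≤ θ →
    ∃ g : C ≃[L] C, (∀ a ∈ P, g a = a) ∧ Indep L θ P (g '' R) Z
  /-- Uniqueness of free extensions of types. -/
  unique : ∀ P ∈ Models K θ C, ∀ R ∈ Models K θ C, P ⊆ R → ∀ E : Set C, #E < θ →
    ∀ g : C ≃[L] C, (∀ a ∈ P, g a = a) → Indep L θ P E R → Indep L θ P (g '' E) R →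
      SameType L R E g
  /-- Uniqueness of free amalgams: two automorphisms which agree on `P`, one given on `A`, the
  other on `B`, are glued, if the images of `A` and `B` are independent, too. -/
  glue : ∀ P ∈ Models K θ C, ∀ A ∈ Models K θ C, ∀ B ∈ Models K θ C, P ⊆ A → P ⊆ B →
    Indep L θ P A B → ∀ g h : C ≃[L] C, (∀ x ∈ P, g x = h x) →
      Indep L θ (g '' P) (g '' A) (h '' B) →
        ∃ k : C ≃[L] C, (∀ x ∈ A, k x = g x) ∧ ∀ x ∈ B, k x = h x
  /-- Local character along chains of arbitrary length. -/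
  local_character : ∀ (ι : Type u) [LinearOrder ι] [Nonempty ι] (N : ι → Set C), Monotone N →
    (∀ i, N i ∈ Models K θ C) → #(⋃ i, N i : Set C) ≤ θ → ∀ x : Set C, x.Finite →
      ∃ i, Indep L θ (N i) x (⋃ i, N i)
  /-- Existence of atomic models over a strong substructure and finitely many elements; they are
  dominated by these elements. -/
  exists_atomic : ∀ P ∈ Models K θ C, ∀ x : Set C, x.Finite → ∃ N, AtomicOver K θ N (x ∪ P) ∧
    ∀ Z : Set C, Indep L θ P x Z → Indep L θ P N Z
  /-- Atomic models are prime: they embed in all strong substructures over their bases. -/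
  prime : ∀ N X : Set C, AtomicOver K θ N X → ∀ f : C → C,
    (∀ A ⊆ X, #A < θ → ∃ g : C ≃[L] C, ∀ a ∈ A, g a = f a) →
    ∀ N' ∈ Models K θ C, (∀ x ∈ X, f x ∈ N') →
      ∃ g : C ≃[L] C, (∀ x ∈ X, g x = f x) ∧ ∀ a ∈ N, g a ∈ N'
  /-- Uniqueness of atomic models. -/
  atomic_unique : ∀ N X : Set C, AtomicOver K θ N X → ∀ f : C → C,
    (∀ A ⊆ X, #A < θ → ∃ g : C ≃[L] C, ∀ a ∈ A, g a = f a) →
    ∀ N' : Set C, AtomicOver K θ N' (f '' X) →
      ∃ g : C ≃[L] C, (∀ x ∈ X, g x = f x) ∧ g '' N = N'
  /-- There is a minimal type. -/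
  exists_minimal : ∃ p Q : Set C, IsMinimalType K θ p Q
  /-- Intersections of faces of prime systems, in all finite dimensions. -/
  system_inter : ∀ (A : Finset C → Set C) (s : Finset C), PrimeSystem K θ A s →
    ∀ t ⊆ s, ∀ t' ⊆ s, ∀ r, (∀ y, y ∈ r ↔ y ∈ t ∧ y ∈ t') → A t ∩ A t' = A r
  /-- Uniqueness of prime systems, in all finite dimensions: a map `f` which is given on each proper
  face of a prime system by an automorphism onto the corresponding face of another prime system is
  given on all the proper faces by one automorphism, which respects the tops. -/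
  system_unique : ∀ (A A' : Finset C → Set C) (s s' : Finset C), 2 ≤ s.card →
    PrimeSystem K θ A s → PrimeSystem K θ A' s' → ∀ f : C → C, InjOn f (s : Set C) →
    (∀ y, y ∈ s' ↔ ∃ x ∈ s, f x = y) →
    (∀ t, t ⊂ s → ∀ t' : Finset C, (∀ y, y ∈ t' ↔ ∃ x ∈ t, f x = y) →
      ∃ g : C ≃[L] C, (∀ a ∈ A t, g a = f a) ∧ g '' A t = A' t') →
    ∃ g : C ≃[L] C, (∀ t, t ⊂ s → ∀ a ∈ A t, g a = f a) ∧ g '' A s = A' s'

/-- Prime models over the boundaries of the independent systems with at least two points: if all
the proper faces form prime systems and each point of `s` is independent from the opposite face,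
then there is an atomic model over the boundary of `s`. -/
def HasPrimes (K : AEC L) (θ : Cardinal.{u}) (C : Type u) [L.Structure C] : Prop :=
  ∀ (A : Finset C → Set C) (s : Finset C), 2 ≤ s.card → (∀ t, t ⊂ s → PrimeSystem K θ A t) →
    (∀ x ∈ s, ∀ t, (∀ y, y ∈ t ↔ y ∈ s ∧ y ≠ x) → Indep L θ (A ∅) {x} (A t)) →
      ∃ N, AtomicOver K θ N (boundary A s)

end Vale.Agent.P307.R2.H476
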