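import Vale.Agent.P307.R2.H476.Good

/-!
The good frame of the saturated member of cardinality `θ⁺`.
-/

set_option linter.unusedSectionVars false

universe u

open FirstOrder Cardinal Set

namespace Vale.Agent.P307.R2.H476

open Vale.Agent.P307 Vale.Agent.P307.H304 Vale.Agent.P307.R2.H287 Vale.Agent.P307.R2.H1
  Vale.Agent.P307.R2.H806 Vale.Agent.P307.R2.H514
  Vale.Agent.P307.R2.H971 Vale.Agent.P307.R2.H541 Vale.Agent.P307.R2.H541.PG
  Language.Structure Language.Substructure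

variable {L : Language.{u, u}} {C : Type u} [L.Structure C]
variable {K : AEC L} {ℓ θ : Cardinal.{u}} {κf α : Cardinal.{u} → Cardinal.{u}}

/-- The range of a strong embedding. -/
theorem range_mem_models {A : Type u} [L.Structure A] {i : A ↪[L] C} (hi : K.Emb i)
    (hA : #A = θ) : range i ∈ Models K θ C := by
  refine ⟨i.toHom.range, hi, ?_, ?_⟩
  · rw [← hA]
    exact (mk_congr i.equivRange.toEquiv).symm
  · ext x
    simp

theorem sub_mem_models {S : L.Substructure C} (hS : K.le S) (hSc : #S = θ) :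
    (S : Set C) ∈ Models K θ C := ⟨S, hS, hSc, rfl⟩

variable (h₀ : BasePt K ℓ κf α θ) (hK : K.IsLS ℓ)
  (hunb : ∀ ν, ν < κf ν ∧ K.CategoricalIn (κf ν)) (hst : Stab K ℓ α (H287.thr κf))
  (hCm : K.mem C) (hs : Sat K θ C) (hCc : #C = Order.succ θ)

include h₀ hK hunb hst hCm hs hCc

/-- Universal extensions. -/
theorem pg_universal {P : Set C} (hP : P ∈ (pg h₀ hK hunb hst hCm hs hCc).S) :
    ∃ Q ∈ (pg h₀ hK hunb hst hCm hs hCc).S, H1L.Uni (pg h₀ hK hunb hst hCm hs hCc) P Q := by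
  have hθ : ℵ₀ ≤ θ := aleph0_le_pt h₀ hK
  have hℓθ : ℓ ≤ θ := h₀.pt.lt.le
  obtain ⟨t⟩ := exists_tpl' hK hunb
  obtain ⟨E⟩ := exists_em t (θ.ord.ToType ⊕ₗ LBlk θ)
  have hJ : #(θ.ord.ToType ⊕ₗ LBlk θ) = θ := by
    change #(θ.ord.ToType ⊕ LBlk θ) = θ
    rw [mk_sum, lift_id, lift_id, mk_ord_toType, mk_lBlk hθ, add_eq_self hθ]
  have hEc : #E.N = θ := E.card_eq hℓθ hJ
  have hCθ : θ ≤ #C := (Order.le_succ θ).trans hCc.ge
  obtain ⟨e, he⟩ := Sat.exists_of_cat hK hℓθ h₀.pt.cat hCm hCθ E.mem hEc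
  let z : θ.ord.ToType → θ.ord.ToType ⊕ₗ LBlk θ := fun x => toLex (Sum.inl x)
  let s : LBlk θ → θ.ord.ToType ⊕ₗ LBlk θ := fun x => toLex (Sum.inr x)
  have hz : Function.Injective z := fun x y h => Sum.inl_injective (toLex.injective h)
  have hs' : StrictMono s := fun x y h => Sum.Lex.inr_lt_inr_iff.2 h
  have hZ : #(range z) = θ := by rw [mk_range_eq z hz, mk_ord_toType]
  have hU := pg_uni_list h₀ hK hunb hst hCm hs hCc hℓθ E e he s hs' hZ (by
    rintro _ ⟨x, rfl⟩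
    exact Or.inl fun y => Sum.Lex.inl_lt_inr _ _)
  have hmem : ∀ W : Set (θ.ord.ToType ⊕ₗ LBlk θ), θ ≤ #W →
      e '' (hullL E W : Set E.N) ∈ (pg h₀ hK hunb hst hCm hs hCc).S := by
    intro W hW
    have h1 : #(hullL E W) = θ := _root_.le_antisymm
      (mk_hullL_le E hℓθ ((mk_set_le W).trans hJ.le)) (le_mk_hullL E hW)
    have h2 := range_mem_models (K := K) (i := e.comp (hullL E W).subtype)
      (AEC.Emb.comp he (AEC.emb_subtype.2 (le_hullL E W))) h1
    have h3 : range (e.comp (hullL E W).subtype) = e '' (hullL E W : Set E.N) := by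
      ext x
      constructor
      · rintro ⟨y, rfl⟩
        exact ⟨y, y.2, rfl⟩
      · rintro ⟨y, hy, rfl⟩
        exact ⟨⟨y, hy⟩, rfl⟩
    rw [h3] at h2
    exact h2
  obtain ⟨g, hg, hgP⟩ := H1L.exists_conj (hmem (range z) hZ.ge) hP
  refine ⟨g '' (e '' (hullL E (range z ∪ range s) : Set E.N)),
    (pg h₀ hK hunb hst hCm hs hCc).S_inv hg (hmem _ (hZ.ge.trans
      (mk_le_mk_of_subset subset_union_left))), ?_⟩
  have h4 := hU.smul hg
  rwa [hgP] at h4

/-- **The good frame.** -/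
theorem goodFrame {Λ : Cardinal.{u}} (hΛ : BasePt K ℓ κf α Λ) (hθΛ : θ < Λ)
    (hrk : ∀ ρ < θ, ∃ σ, ρ < σ ∧ σ < θ ∧ BasePt K ℓ κf α σ) : GoodFrame K θ C := by
  have hθ : ℵ₀ ≤ θ := aleph0_le_pt h₀ hK
  have hℓθ : ℓ ≤ θ := h₀.pt.lt.le
  have hM := pg_calc h₀ hK hunb hst hCm hs hCc
  have hB := pg_big h₀ hK hunb hst hCm hs hCc
  have hR : (pg h₀ hK hunb hst hCm hs hCc).Real := pg_real h₀ hK hunb hst hCm hs hCc
  have hUn : ∀ {A B : Set C}, #A ≤ θ → #B ≤ θ → #(A ∪ B : Set C) ≤ θ := fun hA hB =>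
    (mk_union_le _ _).trans (add_le_of_le hθ hA hB)
  have hI : ∀ {P X Y : Set C}, Indep L θ P X Y ↔ (pg h₀ hK hunb hst hCm hs hCc).Ind P X Y :=
    indep_iff h₀ hK hunb hst hCm hs hCc
  constructor
  · -- cover
    exact hB.ls
  · -- homogeneous
    intro P Q hP hQ hPc e
    exact hs.exists_aut hK hℓθ hCc P Q hP hQ hPc e
  · -- realize
    intro N hN A hA hAc B hBc
    exact (ex_aut (L := L) (p := fun g => (∀ a ∈ A, g a = a) ∧ ∀ b ∈ B, g b ∈ N)).1
      ((pg h₀ hK hunb hst hCm hs hCc).sat hN hA hAc hBc)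
  · -- tame
    intro N hN E hE f hf
    exact (ex_aut (L := L) (p := fun g => (∀ a ∈ N, g a = a) ∧ ∀ e ∈ E, g e = f e)).1
      (hB.conj hN hE f (sameSmall_iff.1 hf))
  · -- tame_pair
    intro P hP A hA B hB' hPA hPB hind E hE f hf
    exact (ex_aut (L := L) (p := fun g => (∀ a ∈ A ∪ B, g a = a) ∧ ∀ e ∈ E, g e = f e)).1
      (conj_of_tm hR hB.ls (hUn ((pg h₀ hK hunb hst hCm hs hCc).S_card hA).le
        ((pg h₀ hK hunb hst hCm hs hCc).S_card hB').le) hE
        (pg_tm_two h₀ hK hunb hst hCm hs hCc hP hA hB' hPA hPB (hI.1 hind))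
        (sameSmall_iff.1 hf))
  · -- universal
    intro P hP
    obtain ⟨Q, hQ, h1, h2⟩ := pg_universal h₀ hK hunb hst hCm hs hCc hP
    refine ⟨Q, hQ, h1, fun R hR' hPR => ?_⟩
    obtain ⟨g, hg, h3, h4⟩ := h2 R hR' hPR
    exact (ex_aut (L := L) (p := fun g => (∀ a ∈ P, g a = a) ∧ ∀ x ∈ R, g x ∈ Q)).1
      ⟨g, hg, h3, fun x hx => h4 (mem_image_of_mem g hx)⟩
  · -- symm
    intro P hP X Y h
    exact hI.2 (hM.sym hP (hI.1 h))
  · -- trans
    intro P R X Y hPR h h'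
    exact hI.2 (Ind.trans (hI.1 h) (hI.1 h') hPR)
  · -- base
    intro P hP P' hP' hPP X Y h
    exact hI.2 (hM.ind_base hP hP' hPP (hI.1 h))
  · -- exists_free
    intro P hP R hR' hPR Z hZ
    obtain ⟨g, hg, h1, h2⟩ := H827.pg_freeM h₀ hK hunb hst hCm hs hCc hΛ hθΛ P hP R hR' hPR Z hZ
    exact (ex_aut (L := L) (p := fun g => (∀ a ∈ P, g a = a) ∧ Indep L θ P (g '' R) Z)).1
      ⟨g, hg, h1, hI.2 h2⟩
  · -- unique
    intro P hP R hR' hPR E hE g hgP h1 h2
    refine (ex_aut (L := L) (p := fun k => (∀ a ∈ R, k a = a) ∧ ∀ e ∈ E, k e = g e)).1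
      (hB.conj hR' hE g fun D hD hDc => ?_)
    obtain ⟨k, hk, h3, h4⟩ := Up.glue hM hP hE hDc ((hI.1 h1).mono Subset.rfl hD)
      (mem_autG g) (Subgroup.one_mem _) hgP (fun _ _ => rfl) (by
        have h5 : ((1 : Equiv.Perm C) '' D) = D := by
          rw [Equiv.Perm.coe_one, image_id]
        rw [h5]
        exact (hI.1 h2).mono Subset.rfl hD)
    exact ⟨k, hk, h4, h3⟩
  · -- glue
    intro P hP A hA B hB' hPA hPB hind g h hgh hind'
    have hgG : g.toEquiv ∈ (pg h₀ hK hunb hst hCm hs hCc).G := mem_autG g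
    have hhG : h.toEquiv ∈ (pg h₀ hK hunb hst hCm hs hCc).G := mem_autG h
    let gi : Equiv.Perm C := (g.toEquiv : Equiv.Perm C)⁻¹
    have hgiG : gi ∈ (pg h₀ hK hunb hst hCm hs hCc).G := Subgroup.inv_mem _ hgG
    have hvG : gi * h.toEquiv ∈ (pg h₀ hK hunb hst hCm hs hCc).G := Subgroup.mul_mem _ hgiG hhG
    have hgi : ∀ x, gi (g x) = x := fun x => (g.toEquiv : Equiv.Perm C).symm_apply_apply x
    have him : ∀ W : Set C, gi '' (g '' W) = W := by
      intro W
      rw [← image_comp]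
      have h0 : (gi : C → C) ∘ g = id := funext hgi
      rw [h0, image_id]
    have h1 := (hI.1 hind').smul hgiG
    rw [him, him, ← image_comp] at h1
    obtain ⟨f, h2, h3, h4⟩ := glue_le hM hP (hI.1 hind) hvG (by
      intro x hx
      change gi (h x) = x
      rw [← hgh x hx, hgi]) h1
    obtain ⟨N, hN, hNf⟩ := hB.ls (f '' (A ∪ B)) (mk_image_le.trans
      (hUn ((pg h₀ hK hunb hst hCm hs hCc).S_card hA).le
        ((pg h₀ hK hunb hst hCm hs hCc).S_card hB').le))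
    obtain ⟨k, hk, h5⟩ := LE.exists_aut' hR hN (fun x hx => hNf (mem_image_of_mem f hx)) h4
      (pg_tm_two h₀ hK hunb hst hCm hs hCc hP hA hB' hPA hPB (hI.1 hind))
    refine (ex_aut (L := L) (p := fun k => (∀ x ∈ A, k x = g x) ∧ ∀ x ∈ B, k x = h x)).1
      ⟨g.toEquiv * k, Subgroup.mul_mem _ hgG hk, fun x hx => ?_, fun x hx => ?_⟩
    · change g (k x) = g x
      rw [h5 x (Or.inl hx), h2 x hx]
    · change g (k x) = h x
      rw [h5 x (Or.inr hx), h3 x hx]
      exact (g.toEquiv : Equiv.Perm C).apply_symm_apply (h x)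
  · -- local character
    intro ι _ _ N hN hNS hc x hx
    obtain ⟨i, hi⟩ := H882.loc h₀ hK hunb hst hCm hs hCc hrk ι N hN hNS hc x hx
    exact ⟨i, hI.2 hi⟩
  · -- atomic models
    intro P hP x hx
    obtain ⟨D, hD, hDc, rfl⟩ := hP
    have : Finite x := hx
    obtain ⟨N, hN⟩ := pg_di1 h₀ hK hunb hst hCm hs hCc hΛ hθΛ hD hDc (fun z : x => (z : C))
    rw [Subtype.range_coe] at hN
    exact ⟨N, (atomic_iff h₀ hK hunb hst hCm hs hCc).2 hN, fun Z hZ => hI.2 (hN.dom (hI.1 hZ))⟩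
  · -- prime
    intro N X hN f hf N' hN' hfN
    exact (ex_aut (L := L) (p := fun g => (∀ x ∈ X, g x = f x) ∧ ∀ a ∈ N, g a ∈ N')).1
      (((atomic_iff h₀ hK hunb hst hCm hs hCc).1 hN).exists_embed
        ((le_iff h₀ hK hunb hst hCm hs hCc).1 hf) hN' hfN)
  · -- uniqueness of atomic models
    intro N X hN f hf N' hN'
    exact (ex_aut (L := L) (p := fun g => (∀ x ∈ X, g x = f x) ∧ g '' N = N')).1
      (((atomic_iff h₀ hK hunb hst hCm hs hCc).1 hN).exists_iso
        ((le_iff h₀ hK hunb hst hCm hs hCc).1 hf) ((atomic_iff h₀ hK hunb hst hCm hs hCc).1 hN'))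
  · -- minimal types
    obtain ⟨θ₀, -, h1, h2⟩ := hrk ℓ h₀.pt.lt
    obtain ⟨P, Q, -, -, h3⟩ := H578.exists_min h2 h1 h₀ hK hunb hst hCm hs hCc
    refine ⟨P, Q, h3.small, fun g hg x hx => h3.inv g.toEquiv (mem_autG g) hg x hx,
      fun V hV => h3.big V ((pg h₀ hK hunb hst hCm hs hCc).S_card hV).le,
      fun V hV hPV x hx hxV y hy hyV => ?_⟩
    exact (ex_aut (L := L) (p := fun g => (∀ a ∈ V, g a = a) ∧ g x = y)).1
      (h3.conj V hV hPV x hx hxV y hy hyV)
  · -- intersections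
    classical
    intro A s hA t ht t' ht' r hr
    have h1 : r = t ∩ t' := by
      ext y
      rw [hr y, Finset.mem_inter]
    rw [h1]
    convert ((system_iff h₀ hK hunb hst hCm hs hCc).1 hA).inter hM ht ht' using 2
  · -- uniqueness of systems
    classical
    intro A A' s s' hsc hA hA' f hf hss' h
    have h1 := (system_iff h₀ hK hunb hst hCm hs hCc).1 hA
    have h2 := (system_iff h₀ hK hunb hst hCm hs hCc).1 hA'
    have hs0 : s.Nonempty := Finset.card_pos.1 (by omega)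
    have himg : s.image f = s' := by
      ext y
      rw [hss' y, Finset.mem_image]
    have hface : ∀ t, t ⊂ s → ∃ g ∈ autG L C, (∀ a ∈ A t, g a = f a) ∧
        g '' A t = A' (t.image f) := by
      intro t ht
      exact (ex_aut (L := L) (p := fun g => (∀ a ∈ A t, g a = f a) ∧
        g '' A t = A' (t.image f))).2 (h t ht _ fun y => Finset.mem_image)
    obtain ⟨g, hg, h3, h4, -⟩ := h1.exists_iso hM h2 hs0 f hf (by
        convert himg using 2) f (by
        intro t ht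
        obtain ⟨g, hg, h5, h6⟩ := hface t ht
        refine ⟨g, hg, h5, ?_⟩
        rw [h6]) (fun _ _ _ _ => rfl) (by
        intro x hx D hD _
        have hxs : ({x} : Finset C) ⊂ s := by
          refine (Finset.singleton_subset_iff.2 hx).ssubset_of_ne ?_
          rintro rfl
          rw [Finset.card_singleton] at hsc
          omega
        obtain ⟨g, hg, h5, -⟩ := hface {x} hxs
        exact ⟨g, hg, fun a ha => h5 a (h1.mono hxs.subset (Finset.empty_subset _) (hD ha)),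
          h5 x (h1.point hxs.subset (Finset.mem_singleton_self x))⟩)
    exact (ex_aut (L := L) (p := fun g => (∀ t, t ⊂ s → ∀ a ∈ A t, g a = f a) ∧
      g '' A s = A' s')).1 ⟨g, hg, h3, h4⟩

end Vale.Agent.P307.R2.H476
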