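import Vale.Agent.P307.R2.H476.Defs
import Vale.Agent.P307.R2.H718.Ladder
import Vale.Agent.P307.R2.H732.Tx2
import Vale.Agent.P307.R2.H427.MapPG
import Vale.Agent.P307.R2.H827.FreeM
import Vale.Agent.P307.R2.H882.Lc
import Vale.Agent.P307.R2.H578.Min4
import Vale.Agent.P307.R2.H514.UnivL
import Vale.Agent.P307.R2.H806.RealPG

/-!
The good frame of the saturated member of cardinality `θ⁺`.
-/

set_option linter.unusedSectionVars false

universe u

open FirstOrder Cardinal Set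

namespace Vale.Agent.P307.R2.H476

open Vale.Agent.P307 Vale.Agent.P307.H304 Vale.Agent.P307.R2.H287 Vale.Agent.P307.R2.H1
  Vale.Agent.P307.R2.H971 Vale.Agent.P307.R2.H541 Vale.Agent.P307.R2.H541.PG
  Language.Structure Language.Substructure

/-! ### General lemmas about the permutation geometries -/

section

variable {C : Type u} {M : PG C}

/-- Tameness is preserved when a small set is added. -/
theorem tm_union {Y e : Set C} (hT : M.Tm Y) (he : #e < M.χ) : M.Tm (Y ∪ e) := by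
  intro σ hσ
  obtain ⟨H, hH, h1⟩ := hT (σ + #e) (add_lt_of_lt M.hχ hσ he)
  refine ⟨H + #e, add_lt_of_lt M.hχ hH he, fun E hE g hg hgE A hA hAc => ?_⟩
  obtain ⟨h₀, hh₀, h₀e, h₀E⟩ := hgE e subset_union_right (self_le_add_left _ _)
  obtain ⟨h, hh, h2, h3⟩ := h1 (E ∪ e) ((mk_union_le _ _).trans (add_le_add_left hE _)) h₀ hh₀ (by
      intro A' hA' hA'c
      obtain ⟨k, hk, hkA, hkE⟩ := hgE (A' ∪ e) (union_subset_union_left e hA')
        ((mk_union_le _ _).trans (add_le_add_left hA'c _))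
      refine ⟨k, hk, fun a ha => hkA a (Or.inl ha), ?_⟩
      rintro x (hx | hx)
      · rw [hkE x hx, h₀E x hx]
      · rw [hkA x (Or.inr hx), h₀e x hx]) (A ∩ Y) inter_subset_right
      (small_subset inter_subset_left hAc)
  refine ⟨h, hh, fun a ha => ?_, fun x hx => ?_⟩
  · rcases hA ha with h4 | h4
    · exact h2 a ⟨ha, h4⟩
    · rw [h3 a (Or.inr h4), h₀e a h4]
  · rw [h3 x (Or.inl hx), h₀E x hx]

/-- A small set whose types over the small subsets of `X` are given is moved over `X`. -/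
theorem conj_of_tm (hR : M.Real) (hls : ∀ X : Set C, #X ≤ M.χ → ∃ N ∈ M.S, X ⊆ N) {X E : Set C}
    (hX : #X ≤ M.χ) (hE : #E < M.χ) (hT : M.Tm X) {f : C → C}
    (hf : ∀ A ⊆ X, #A < M.χ → ∃ g ∈ M.G, (∀ a ∈ A, g a = a) ∧ ∀ e ∈ E, g e = f e) :
    ∃ g ∈ M.G, (∀ a ∈ X, g a = a) ∧ ∀ e ∈ E, g e = f e := by
  classical
  let F : C → C := fun x => if x ∈ E then f x else x
  have h1 : ∀ x ∈ E, F x = f x := fun x hx => if_pos hx
  have h2 : ∀ x ∈ X, F x = x := by
    intro x hx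
    by_cases h : x ∈ E
    · rw [h1 x h]
      obtain ⟨g, -, h3, h4⟩ := hf {x} (singleton_subset_iff.2 hx)
        (small_finite (finite_singleton x))
      rw [← h4 x h, h3 x rfl]
    · exact if_neg h
  have hF : M.LE F (X ∪ E) := by
    intro A hA hAc
    obtain ⟨g, hg, h3, h4⟩ := hf (A ∩ X) inter_subset_right (small_subset inter_subset_left hAc)
    refine ⟨g, hg, fun a ha => ?_⟩
    rcases hA ha with h5 | h5
    · rw [h2 a h5]
      exact h3 a ⟨ha, h5⟩
    · rw [h1 a h5]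
      exact h4 a h5
  obtain ⟨N, hN, hNF⟩ := hls (F '' (X ∪ E)) (mk_image_le.trans ((mk_union_le _ _).trans
    (add_le_of_le M.hχ hX hE.le)))
  obtain ⟨g, hg, hgF⟩ := LE.exists_aut' hR hN (fun x hx => hNF (mem_image_of_mem F hx)) hF
    (tm_union hT hE)
  exact ⟨g, hg, fun a ha => by rw [hgF a (Or.inl ha), h2 a ha],
    fun x hx => by rw [hgF x (Or.inr hx), h1 x hx]⟩

/-- Two elements of the group which agree on `P` are glued along independent sets. -/
theorem glue_le (hM : M.Calc) {P A B : Set C} (hP : P ∈ M.S)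
    (hI : M.Ind P A B) {v : Equiv.Perm C} (hv : v ∈ M.G) (hvP : ∀ x ∈ P, v x = x)
    (hI' : M.Ind P A (v '' B)) : ∃ f : C → C, (∀ x ∈ A, f x = x) ∧ (∀ x ∈ B, f x = v x) ∧
      M.LE f (A ∪ B) := by
  classical
  let f : C → C := fun x => if x ∈ A then x else v x
  have h1 : ∀ x ∈ A, f x = x := fun x hx => if_pos hx
  have h2 : ∀ x ∈ B, f x = v x := by
    intro x hx
    by_cases h : x ∈ A
    · rw [h1 x h, hvP x (hI.inter_sub ⟨h, hx⟩)]
    · exact if_neg h
  refine ⟨f, h1, h2, fun D hD hDc => ?_⟩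
  obtain ⟨h, hh, h3, h4⟩ := Up.glue hM hP (a := D ∩ A) (b := D ∩ B)
    (small_subset inter_subset_left hDc) (small_subset inter_subset_left hDc)
    (hI.mono inter_subset_right inter_subset_right) M.G.one_mem hv (fun _ _ => rfl) hvP (by
      refine hI'.mono ?_ (image_mono inter_subset_right)
      rintro _ ⟨x, hx, rfl⟩
      exact hx.2)
  refine ⟨h, hh, fun x hx => ?_⟩
  rcases hD hx with h5 | h5
  · rw [h1 x h5]
    exact h3 x ⟨hx, h5⟩
  · rw [h2 x h5]
    exact h4 x ⟨hx, h5⟩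

end

/-! ### The translation -/

section

variable {L : Language.{u, u}} {C : Type u} [L.Structure C]

theorem ex_aut {p : (C → C) → Prop} :
    (∃ g ∈ autG L C, p g) ↔ ∃ g : C ≃[L] C, p g := by
  constructor
  · rintro ⟨g, ⟨e, he⟩, h⟩
    refine ⟨e, ?_⟩
    have h1 : (e : C → C) = g := funext he
    rw [h1]
    exact h
  · rintro ⟨e, h⟩
    exact ⟨e.toEquiv, mem_autG e, h⟩

theorem all_aut {p : (C → C) → Prop} :
    (∀ g ∈ autG L C, p g) ↔ ∀ g : C ≃[L] C, p g := by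
  constructor
  · intro h e
    exact h e.toEquiv (mem_autG e)
  · rintro h g ⟨e, he⟩
    have h1 : (e : C → C) = g := funext he
    have h2 := h e
    rwa [h1] at h2

variable {K : AEC L} {ℓ θ : Cardinal.{u}} {κf α : Cardinal.{u} → Cardinal.{u}}
variable (h₀ : BasePt K ℓ κf α θ) (hK : K.IsLS ℓ)
  (hunb : ∀ ν, ν < κf ν ∧ K.CategoricalIn (κf ν)) (hst : Stab K ℓ α (H287.thr κf))
  (hCm : K.mem C) (hs : Sat K θ C) (hCc : #C = Order.succ θ)

theorem models_eq : Models K θ C = (pg h₀ hK hunb hst hCm hs hCc).S := rfl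

theorem indep_iff {P X Y : Set C} :
    Indep L θ P X Y ↔ (pg h₀ hK hunb hst hCm hs hCc).Ind P X Y := by
  constructor
  · intro h A hA hAc B hB hBc
    exact (ex_aut (L := L) (p := fun g => (∀ a ∈ A, g a = a) ∧ ∀ b ∈ B, g b ∈ P)).2
      (h A hA hAc B hB hBc)
  · intro h A hA hAc B hB hBc
    exact (ex_aut (L := L) (p := fun g => (∀ a ∈ A, g a = a) ∧ ∀ b ∈ B, g b ∈ P)).1
      (h A hA hAc B hB hBc)

theorem sameSmall_iff {X E : Set C} {f : C → C} : SameSmallTypes L θ X E f ↔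
    ∀ A ⊆ X, #A < θ → ∃ g ∈ autG L C, (∀ a ∈ A, g a = a) ∧ ∀ e ∈ E, g e = f e := by
  constructor
  · intro h A hA hAc
    exact (ex_aut (L := L) (p := fun g => (∀ a ∈ A, g a = a) ∧ ∀ e ∈ E, g e = f e)).2
      (h A hA hAc)
  · intro h A hA hAc
    exact (ex_aut (L := L) (p := fun g => (∀ a ∈ A, g a = a) ∧ ∀ e ∈ E, g e = f e)).1
      (h A hA hAc)

theorem isolates_iff {B X E : Set C} :
    Isolates L θ B X E ↔ (pg h₀ hK hunb hst hCm hs hCc).Isol B X E := by
  constructor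
  · intro h g hg hgB
    obtain ⟨e, he⟩ := hg
    have h1 : (e : C → C) = g := funext he
    have h2 := h e (fun b hb => by rw [he]; exact hgB b hb)
    rw [sameSmall_iff, h1] at h2
    exact h2
  · intro h g hgB
    rw [sameSmall_iff]
    exact h g.toEquiv (mem_autG g) hgB

theorem atomic_iff {N X : Set C} :
    AtomicOver K θ N X ↔ (pg h₀ hK hunb hst hCm hs hCc).Atomic N X := by
  constructor
  · rintro ⟨h1, h2, h3⟩
    refine ⟨h1, h2, fun E hE hEc => ?_⟩
    obtain ⟨B, hB, hBc, h4⟩ := h3 E hE hEc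
    exact ⟨B, hB, hBc, (isolates_iff h₀ hK hunb hst hCm hs hCc).1 h4⟩
  · rintro ⟨h1, h2, h3⟩
    refine ⟨h1, h2, fun E hE hEc => ?_⟩
    obtain ⟨B, hB, hBc, h4⟩ := h3 E hE hEc
    exact ⟨B, hB, hBc, (isolates_iff h₀ hK hunb hst hCm hs hCc).2 h4⟩

theorem le_iff {f : C → C} {X : Set C} :
    (∀ A ⊆ X, #A < θ → ∃ g : C ≃[L] C, ∀ a ∈ A, g a = f a) ↔
      (pg h₀ hK hunb hst hCm hs hCc).LE f X := by
  constructor
  · intro h A hA hAc
    exact (ex_aut (L := L) (p := fun g => ∀ a ∈ A, g a = f a)).2 (h A hA hAc)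
  · intro h A hA hAc
    exact (ex_aut (L := L) (p := fun g => ∀ a ∈ A, g a = f a)).1 (h A hA hAc)

open scoped Classical in
theorem free_iff {A : Finset C → Set C} {s : Finset C} {x : C} :
    (∀ t, (∀ y, y ∈ t ↔ y ∈ s ∧ y ≠ x) → Indep L θ (A ∅) {x} (A t)) ↔
      (pg h₀ hK hunb hst hCm hs hCc).Ind (A ∅) {x} (A (s.erase x)) := by
  constructor
  · intro h
    rw [← indep_iff]
    refine h _ fun y => ?_
    rw [Finset.mem_erase]
    exact and_comm
  · intro h t ht
    have h1 : t = s.erase x := by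
      ext y
      rw [ht y, Finset.mem_erase]
      exact and_comm
    rw [h1, indep_iff h₀ hK hunb hst hCm hs hCc]
    exact h

theorem system_iff {A : Finset C → Set C} {s : Finset C} :
    PrimeSystem K θ A s ↔ (pg h₀ hK hunb hst hCm hs hCc).PSys A s := by
  constructor
  · rintro ⟨h1, h2, h3⟩
    exact ⟨h1, fun x hx => (free_iff h₀ hK hunb hst hCm hs hCc).1 (h2 x hx),
      fun t ht h0 => (atomic_iff h₀ hK hunb hst hCm hs hCc).1 (h3 t ht h0)⟩
  · rintro ⟨h1, h2, h3⟩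
    exact ⟨h1, fun x hx => (free_iff h₀ hK hunb hst hCm hs hCc).2 (h2 x hx),
      fun t ht h0 => (atomic_iff h₀ hK hunb hst hCm hs hCc).2 (h3 t ht h0)⟩

/-- Prime models over the boundaries. -/
theorem di_of_hasPrimes {Λ : Cardinal.{u}} (hΛ : BasePt K ℓ κf α Λ) (hθΛ : θ < Λ)
    (h : HasPrimes K θ C) : (pg h₀ hK hunb hst hCm hs hCc).DI := by
  classical
  intro A s hs0 hsys hind
  rcases PSys.cases_card s with rfl | ⟨x, rfl⟩ | hsc
  · exact absurd hs0 Finset.not_nonempty_empty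
  · rw [bd_singleton]
    obtain ⟨D, hD, hDc, hDA⟩ := (hsys ∅ (Finset.ssubset_singleton_iff.2 rfl)).memS
    obtain ⟨N, hN⟩ := pg_di1 h₀ hK hunb hst hCm hs hCc hΛ hθΛ hD hDc
      (fun _ : PUnit.{u + 1} => x)
    refine ⟨N, ?_⟩
    rwa [range_const, hDA] at hN
  · obtain ⟨N, hN⟩ := h A s hsc (fun t ht => (system_iff h₀ hK hunb hst hCm hs hCc).2 (hsys t ht))
      fun x hx => (free_iff h₀ hK hunb hst hCm hs hCc).2 (by
        have := hind x hx
        convert this)
    exact ⟨N, (atomic_iff h₀ hK hunb hst hCm hs hCc).1 hN⟩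

end

end Vale.Agent.P307.R2.H476
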