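import Vale.Agent.P307.R2.H476.Frame

/-!
The good frames, uniformly in the Löwenheim-Skolem number, and the question from prime models over
the boundaries of independent systems at one cardinal.
-/

set_option linter.unusedSectionVars false

universe u

open FirstOrder Cardinal Set

namespace Vale.Agent.P307.R2.H476

open Vale.Agent.P307 Vale.Agent.P307.H304 Vale.Agent.P307.R2.H287 Vale.Agent.P307.R2.H1
  Vale.Agent.P307.R2.H971 Vale.Agent.P307.R2.H541 Vale.Agent.P307.R2.H541.PG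
  Language.Structure Language.Substructure

variable {L : Language.{u, u}} {K : AEC L} {ℓ θ : Cardinal.{u}}
  {κf α : Cardinal.{u} → Cardinal.{u}}

/-- Strong extensions of cardinality at most `θ⁺` of a strong submodel embed over it. -/
theorem exists_emb_over (hK : K.IsLS ℓ) (hℓ : ℓ ≤ θ) {A B C : Type u} [L.Structure A]
    [L.Structure B] [L.Structure C] (hs : Sat K θ C) (i : A ↪[L] C) (f : A ↪[L] B)
    (hi : K.Emb i) (hf : K.Emb f) (hA : #A = θ) (hB : #B ≤ Order.succ θ) :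
    ∃ g : B ↪[L] C, K.Emb g ∧ ∀ a, g (f a) = i a := by
  have h1 : θ ≤ #B := hA.symm.trans_le (mk_le_of_injective f.injective)
  rcases h1.eq_or_lt with h2 | h2
  · exact hs A B i f hi hf hA h2.symm
  · exact hs.exists_emb hK hℓ (_root_.le_antisymm hB (Order.succ_le_of_lt h2)) f i hf hi hA

section

variable (h₀ : BasePt K ℓ κf α θ) (hK : K.IsLS ℓ)
  (hunb : ∀ ν, ν < κf ν ∧ K.CategoricalIn (κf ν)) (hst : Stab K ℓ α (H287.thr κf))

include h₀ hK hunb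

/-- Amalgamation. -/
theorem amalgamation : Amalgamation K θ := by
  intro A B D _ _ _ f g hf hg hA hB hD
  obtain ⟨C, _, hCm, hCc, hs⟩ := h₀.exists_saturated hK hunb
  obtain ⟨i, hi⟩ := Sat.exists_of_cat hK h₀.pt.lt.le h₀.pt.cat hCm
    ((Order.le_succ θ).trans hCc.ge) (AEC.Emb.mem_left hf) hA
  obtain ⟨f', h1, h2⟩ := exists_emb_over hK h₀.pt.lt.le hs i f hi hf hA hB
  obtain ⟨g', h3, h4⟩ := exists_emb_over hK h₀.pt.lt.le hs i g hi hg hA hD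
  exact ⟨C, inferInstance, f', g', h1, h3, hCc, fun a => by rw [h2, h4]⟩

/-- Members of cardinality `θ` or `θ⁺` embed in the saturated member. -/
theorem exists_emb_sat {B C : Type u} [L.Structure B] [L.Structure C] (hCm : K.mem C)
    (hs : Sat K θ C) (hCc : #C = Order.succ θ) (hB : K.mem B) (h1 : θ ≤ #B)
    (h2 : #B ≤ Order.succ θ) : ∃ f : B ↪[L] C, K.Emb f := by
  obtain ⟨S, hS, -, hSc⟩ := exists_sub_card hK h₀.pt.lt.le hB h1 ∅ (by simp)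
  obtain ⟨i, hi⟩ := Sat.exists_of_cat hK h₀.pt.lt.le h₀.pt.cat hCm
    ((Order.le_succ θ).trans hCc.ge) (K.mem_of_le _ hS).1 hSc
  obtain ⟨f, hf, -⟩ := exists_emb_over hK h₀.pt.lt.le hs i S.subtype hi
    (AEC.emb_subtype.2 hS) hSc h2
  exact ⟨f, hf⟩

include hst

/-- Disjoint amalgamation. -/
theorem disjointAmalgamation {Λ : Cardinal.{u}} (hΛ : BasePt K ℓ κf α Λ) (hθΛ : θ < Λ) :
    DisjointAmalgamation K θ := by
  intro A B D _ _ _ f g hf hg hA hB hD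
  have hθ : ℵ₀ ≤ θ := aleph0_le_pt h₀ hK
  obtain ⟨C, _, hCm, hCc, hs⟩ := h₀.exists_saturated hK hunb
  have hCθ : θ ≤ #C := (Order.le_succ θ).trans hCc.ge
  obtain ⟨i, hi⟩ := Sat.exists_of_cat hK h₀.pt.lt.le h₀.pt.cat hCm hCθ (AEC.Emb.mem_left hf) hA
  obtain ⟨f', hf', h2⟩ := exists_emb_over hK h₀.pt.lt.le hs i f hi hf hA
    (hB.le.trans (Order.le_succ θ))
  obtain ⟨g', hg', h4⟩ := exists_emb_over hK h₀.pt.lt.le hs i g hi hg hA
    (hD.le.trans (Order.le_succ θ))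
  obtain ⟨k, hk, hkP, hkI⟩ := H827.pg_freeM h₀ hK hunb hst hCm hs hCc hΛ hθΛ (range i)
    (range_mem_models hi hA) (range f') (range_mem_models hf' hB) (by
      rintro _ ⟨a, rfl⟩
      exact ⟨f a, h2 a⟩) (range g') (mk_range_le.trans hD.le)
  obtain ⟨e, he⟩ := hk
  let f₁ : B ↪[L] C := e.toEmbedding.comp f'
  have hf₁ : K.Emb f₁ := AEC.Emb.comp (AEC.Emb.of_equiv e hCm) hf'
  have hf₁k : ∀ b, f₁ b = k (f' b) := fun b => he (f' b)
  obtain ⟨S, hS, hSr, hSc⟩ := exists_sub_card hK h₀.pt.lt.le hCm hCθ (range f₁ ∪ range g')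
    ((mk_union_le _ _).trans (add_le_of_le hθ (mk_range_le.trans hB.le)
      (mk_range_le.trans hD.le)))
  obtain ⟨f₂, hf₂, hf₂'⟩ := exists_lift f₁ S.subtype hf₁ (AEC.emb_subtype.2 hS)
    fun a => ⟨⟨f₁ a, hSr (Or.inl ⟨a, rfl⟩)⟩, rfl⟩
  obtain ⟨g₂, hg₂, hg₂'⟩ := exists_lift g' S.subtype hg' (AEC.emb_subtype.2 hS)
    fun a => ⟨⟨g' a, hSr (Or.inr ⟨a, rfl⟩)⟩, rfl⟩
  refine ⟨S, inferInstance, f₂, g₂, hf₂, hg₂, hSc, fun a => S.subtype.injective ?_,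
    fun b d hbd => ?_⟩
  · rw [hf₂', hg₂', h4, hf₁k, h2]
    exact hkP _ ⟨a, rfl⟩
  · have h5 : f₁ b = g' d := by
      rw [← hf₂' b, ← hg₂' d, hbd]
    have h6 : g' d ∈ range i := hkI.inter_sub ⟨by
      rw [← h5, hf₁k]
      exact mem_image_of_mem k ⟨b, rfl⟩, ⟨d, rfl⟩⟩
    obtain ⟨a, ha⟩ := h6
    refine ⟨a, f'.injective (k.injective ?_), g'.injective ?_⟩
    · rw [← hf₁k b, h5, h2, ← ha]
      exact hkP _ ⟨a, rfl⟩
    · rw [h4, ha]

end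

/-- **The question for one class**, from prime models over the boundaries at one base point. -/
theorem eventually_of_hasPrimes (h₀ : BasePt K ℓ κf α θ) (hK : K.IsLS ℓ)
    (hunb : ∀ ν, ν < κf ν ∧ K.CategoricalIn (κf ν)) (hst : Stab K ℓ α (H287.thr κf))
    {Λ : Cardinal.{u}} (hΛ : BasePt K ℓ κf α Λ) (hθΛ : θ < Λ)
    (hrk : ∀ ρ < θ, ∃ σ, ρ < σ ∧ σ < θ ∧ BasePt K ℓ κf α σ) {C : Type u} [L.Structure C]
    (hCm : K.mem C) (hs : Sat K θ C) (hCc : #C = Order.succ θ) (h : HasPrimes K θ C) :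
    ∃ χ : Cardinal.{u}, ∀ κ, χ ≤ κ → K.CategoricalIn κ := by
  obtain ⟨θ₀, -, h1, h2⟩ := hrk ℓ h₀.pt.lt
  obtain ⟨P, Q, -, -, h3⟩ := H578.exists_min h2 h1 h₀ hK hunb hst hCm hs hCc
  obtain ⟨χ, CC, _, P, Q, G, hLS, hχ, hmon, hPl, hP, hinv, hI⟩ :=
    H718.hasGeo_of_mini h₀ hK hunb hst hCm hs hCc
      (di_of_hasPrimes h₀ hK hunb hst hCm hs hCc hΛ hθΛ h) (H578.mini_of_min h3)
  refine ⟨χ, fun κ hκ => H427.categoricalIn_of_geo hLS hχ hmon hPl hP hinv hI (fun ν hν => ?_)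
    κ hκ⟩
  obtain ⟨hρ, ⟨M, _, hM, hMρ⟩, -⟩ := hunb ν
  exact exists_mem_card hLS hν hM (hρ.le.trans hMρ.ge)

/-- **Good frames**, uniformly. -/
theorem uniform_frames (l : Cardinal.{u}) :
    ∃ μ : Cardinal.{u}, l ≤ μ ∧ ∃ D : Set Cardinal.{u}, IsClub D ∧
      ∀ (L : Language.{u, u}) (K : AEC L), K.LS ≤ l → (∃ κ, μ ≤ κ ∧ K.CategoricalIn κ) →
        (∀ θ ∈ D, θ.ord.cof = ℵ₀ → K.CategoricalIn θ ∧ Amalgamation K θ ∧
          DisjointAmalgamation K θ ∧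
          (∀ θ' ∈ D, θ < θ' → ∀ (M : Type u) [L.Structure M], K.mem M → θ' ≤ #M →
            Saturated K θ M) ∧
          (∃ (C : Type u) (_ : L.Structure C), K.mem C ∧ #C = Order.succ θ ∧ Saturated K θ C) ∧
          ∀ (C : Type u) [L.Structure C], K.mem C → #C = Order.succ θ → Saturated K θ C →
            (∀ (C' : Type u) [L.Structure C'], K.mem C' → #C' = Order.succ θ →
              Saturated K θ C' → Nonempty (C ≃[L] C')) ∧
            (∀ (B : Type u) [L.Structure B], K.mem B → θ ≤ #B → #B ≤ Order.succ θ →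
              ∃ f : B ↪[L] C, Strong K f) ∧
            GoodFrame K θ C) ∧
        ((∃ θ ∈ D, θ.ord.cof = ℵ₀ ∧ ∃ (C : Type u) (_ : L.Structure C), K.mem C ∧
          #C = Order.succ θ ∧ Saturated K θ C ∧ HasPrimes K θ C) →
            ∀ κ', μ ≤ κ' → K.CategoricalIn κ') := by
  obtain ⟨Λ, hΛ⟩ : ∃ Λ : Type u, #Λ = l := ⟨l.out, mk_out l⟩
  choose α κf ν h using fun c : CodeTy Λ => spec_dichotomy2 c
  obtain ⟨μ₁, -, hμ₁⟩ := H67.exists_threshold l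
  have hbν : BddAbove (Set.range ν) := bddAbove_of_small
  let G : Cardinal.{u} → Cardinal.{u} := fun ρ => ⨆ c, gB (κf c) (α c) ρ
  have hbg : ∀ ρ, BddAbove (Set.range fun c => gB (κf c) (α c) ρ) := fun ρ => bddAbove_of_small
  choose N hN1 hN2 hN3 using fun ρ : Cardinal.{u} => H301.exists_closure_cof G (max l ρ)
  refine ⟨max (max l (Order.succ (⨆ c, ν c))) μ₁, (le_max_left _ _).trans (le_max_left _ _),
    {θ | l < θ ∧ ∀ ρ < θ, max (G ρ) (N ρ) < θ}, isClub_closure _ _, ?_⟩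
  intro L K hKl hcat
  obtain ⟨κ, hμκ, hκcat⟩ := hcat
  have hK : K.IsLS #Λ := AEC.isLS_of_LS_le (hKl.trans hΛ.ge)
  obtain ⟨c, hc, hcst⟩ := exists_code' K hK
  rcases h c with ⟨h1, h2, h3⟩ | h1
  swap
  · exfalso
    have h3 : ν c < max l (Order.succ (⨆ c, ν c)) :=
      (Order.lt_succ_of_le (le_ciSup hbν c)).trans_le (le_max_right _ _)
    exact h1 κ ((h3.trans_le (le_max_left _ _)).trans_le hμκ) ((hc κ).2 hκcat)
  have hunb : ∀ ν, ν < κf c ν ∧ K.CategoricalIn (κf c ν) := fun ν =>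
    ⟨(h1 ν).1, (hc _).1 (h1 ν).2⟩
  have hst : Stab K #Λ (α c) (H287.thr (κf c)) := hcst _ _ h3
  have hbase : ∀ θ, l < θ → θ.ord.cof = ℵ₀ → (∀ ρ < θ, G ρ < θ) →
      BasePt K #Λ (κf c) (α c) θ := by
    intro θ hlθ hcof hG
    refine basePt hK hunb hst (fun θ hθ hα hκ hcof => ?_) (by rwa [hΛ]) hcof fun ρ hρ =>
      (le_ciSup (hbg ρ) c).trans_lt (hG ρ hρ)
    rw [← hc]
    exact h2 θ hθ hα hκ hcof
  have hNb : ∀ ρ, ρ < N ρ ∧ BasePt K #Λ (κf c) (α c) (N ρ) := fun ρ =>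
    ⟨(le_max_right _ _).trans_lt (hN1 ρ), hbase _ ((le_max_left _ _).trans_lt (hN1 ρ)) (hN3 ρ)
      (hN2 ρ)⟩
  have hD : ∀ θ, (l < θ ∧ ∀ ρ < θ, max (G ρ) (N ρ) < θ) → θ.ord.cof = ℵ₀ →
      BasePt K #Λ (κf c) (α c) θ ∧ ∀ ρ < θ, ∃ σ, ρ < σ ∧ σ < θ ∧
        BasePt K #Λ (κf c) (α c) σ := by
    rintro θ ⟨hlθ, hθ⟩ hcof
    exact ⟨hbase θ hlθ hcof fun ρ hρ => (le_max_left _ _).trans_lt (hθ ρ hρ), fun ρ hρ =>
      ⟨N ρ, (hNb ρ).1, (le_max_right _ _).trans_lt (hθ ρ hρ), (hNb ρ).2⟩⟩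
  refine ⟨fun θ hθ hcof => ?_, ?_⟩
  · obtain ⟨h₀, hrk⟩ := hD θ hθ hcof
    refine ⟨h₀.pt.cat, amalgamation h₀ hK hunb,
      disjointAmalgamation h₀ hK hunb hst (hNb θ).2 (hNb θ).1, ?_,
      h₀.exists_saturated hK hunb, ?_⟩
    · intro θ' hθ' hθθ' M _ hM hθM
      refine h₀.sat hK hunb ?_
      have h4 : H287.thr (κf c) θ ≤ gB (κf c) (α c) θ :=
        (le_max_left _ _).trans (le_max_left _ _)
      exact (h4.trans (le_ciSup (hbg θ) c)).trans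
        (((le_max_left _ _).trans_lt (hθ'.2 θ hθθ')).le.trans hθM)
    · intro C _ hCm hCc hs
      exact ⟨fun C' _ hCm' hCc' hs' => Sat.unique hK h₀.pt.lt.le h₀.pt.cat hCm hCm' hs hs' hCc
          hCc', fun B _ hB hB1 hB2 => exists_emb_sat h₀ hK hunb hCm hs hCc hB hB1 hB2,
        goodFrame h₀ hK hunb hst hCm hs hCc (hNb θ).2 (hNb θ).1 hrk⟩
  · rintro ⟨θ, hθ, hcof, C, _, hCm, hCc, hs, hpr⟩ κ' hκ'
    obtain ⟨h₀, hrk⟩ := hD θ hθ hcof
    exact hμ₁ L K hKl (eventually_of_hasPrimes h₀ hK hunb hst (hNb θ).2 (hNb θ).1 hrk hCm hs hCc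
      hpr) κ' ((le_max_right _ _).trans hκ')

end Vale.Agent.P307.R2.H476
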